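import Mathlib

/-! # P015 row C: CRT counting (helper29) -/

namespace Vale.Agent.H29.P015

open Finset

theorem rowC (P : Finset ℕ) (hP : ∀ p ∈ P, p.Prime) (r : ℕ → ℤ) (k : ℕ)
    (F : Finset (Fin k → ℤ × ℤ)) (hk : ∀ p ∈ P, k ≤ p)
    (hF : ∀ v ∈ F, ∀ p ∈ P,
      Function.Injective (fun j => (((v j).1 + r p * (v j).2 : ℤ) : ZMod p)))
    (hlt : (F.card : ℝ) * ∏ p ∈ P, (1 - (k:ℝ)/p) < 1) :
    ∃ x : ℕ, x < ∏ p ∈ P, p ∧ ∀ v ∈ F, ∃ j, ∃ p ∈ P,
      (p:ℤ) ∣ x + (v j).1 + r p * (v j).2 := by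
  classical
  have hfact : ∀ i : P, Fact (i : ℕ).Prime := fun i => ⟨hP i i.2⟩
  have hne : ∀ i : P, NeZero (i : ℕ) := fun i => ⟨(hP i i.2).ne_zero⟩
  have hcop : Pairwise (Function.onFun Nat.Coprime (fun i : P => (i : ℕ))) := by
    intro i j hij
    exact (Nat.coprime_primes (hP i i.2) (hP j j.2)).mpr (fun h => hij (Subtype.ext h))
  have hN : ∏ i : P, (i : ℕ) = ∏ p ∈ P, p := Finset.prod_coe_sort P (fun p => p)
  have hNpos : 0 < ∏ i : P, (i : ℕ) := Finset.prod_pos (fun i _ => (hP i i.2).pos)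
  have : NeZero (∏ i : P, (i : ℕ)) := ⟨hNpos.ne'⟩
  let e := ZMod.prodEquivPi (fun i : P => (i : ℕ)) hcop
  let S : (Fin k → ℤ × ℤ) → Finset (∀ i : P, ZMod (i : ℕ)) := fun v =>
    Fintype.piFinset (fun i : P => univ \ univ.image
      (fun j => -(((v j).1 + r i * (v j).2 : ℤ) : ZMod (i : ℕ))))
  have hcard : ∀ v ∈ F, (S v).card = ∏ p ∈ P, (p - k) := by
    intro v hv
    simp only [S, Fintype.card_piFinset]
    rw [← Finset.prod_coe_sort P (fun p => p - k)]
    refine Finset.prod_congr rfl (fun i _ => ?_)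
    rw [Finset.card_sdiff_of_subset (Finset.subset_univ _), Finset.card_univ, ZMod.card,
      Finset.card_image_of_injective _ ?_, Finset.card_univ, Fintype.card_fin]
    intro a b hab
    exact hF v hv i i.2 (neg_injective hab)
  have hlt' : F.card * ∏ p ∈ P, (p - k) < ∏ p ∈ P, p := by
    have h1 : ∏ p ∈ P, (1 - (k:ℝ)/p) = ((∏ p ∈ P, (p - k) : ℕ) : ℝ) / ((∏ p ∈ P, p : ℕ) : ℝ) := by
      push_cast
      rw [← Finset.prod_div_distrib]
      refine Finset.prod_congr rfl (fun p hp => ?_)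
      have h2 : (p : ℝ) ≠ 0 := by exact_mod_cast (hP p hp).ne_zero
      rw [Nat.cast_sub (hk p hp), sub_div, div_self h2]
    have h3 : (0 : ℝ) < ((∏ p ∈ P, p : ℕ) : ℝ) := by
      rw [← hN]; exact_mod_cast hNpos
    rw [h1, ← mul_div_assoc, div_lt_one h3] at hlt
    exact_mod_cast hlt
  have hex : ∃ y : ∀ i : P, ZMod (i : ℕ), ∀ v ∈ F, y ∉ S v := by
    by_contra hcon
    push Not at hcon
    have h1 : (univ : Finset (∀ i : P, ZMod (i : ℕ))) ⊆ F.biUnion S := by
      intro y _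
      obtain ⟨v, hv, hy⟩ := hcon y
      exact Finset.mem_biUnion.mpr ⟨v, hv, hy⟩
    have h2 := (Finset.card_le_card h1).trans Finset.card_biUnion_le
    rw [Finset.sum_congr rfl hcard, Finset.sum_const, smul_eq_mul, Finset.card_univ,
      Fintype.card_pi] at h2
    simp only [ZMod.card] at h2
    rw [hN] at h2
    omega
  obtain ⟨y, hy⟩ := hex
  refine ⟨(e.symm y).val, ?_, ?_⟩
  · rw [← hN]; exact ZMod.val_lt _
  · intro v hv
    have h1 := hy v hv
    simp only [S, Fintype.mem_piFinset, not_forall] at h1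
    obtain ⟨i, hi⟩ := h1
    rw [Finset.mem_sdiff, not_and, not_not] at hi
    obtain ⟨j, _, hj⟩ := Finset.mem_image.mp (hi (Finset.mem_univ _))
    refine ⟨j, i, i.2, ?_⟩
    have h2 : (((e.symm y).val : ℕ) : ZMod (i : ℕ)) = y i := by
      have h3 : e (((e.symm y).val : ℕ) : ZMod (∏ i : P, (i : ℕ))) = y := by
        rw [ZMod.natCast_zmod_val]; exact e.apply_symm_apply y
      rw [map_natCast] at h3
      have h4 := congrFun h3 i
      rw [Pi.natCast_apply] at h4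
      exact h4
    have h5 : (((((e.symm y).val : ℕ) : ℤ) + (v j).1 + r i * (v j).2 : ℤ) : ZMod (i : ℕ)) = 0 := by
      have h6 : (((v j).1 + r i * (v j).2 : ℤ) : ZMod (i : ℕ)) = -(y i) := by
        rw [← hj, neg_neg]
      rw [add_assoc, Int.cast_add, h6, Int.cast_natCast, h2, add_neg_cancel]
    exact (ZMod.intCast_zmod_eq_zero_iff_dvd _ _).mp h5

end Vale.Agent.H29.P015
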