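import Mathlib

/-! # P015 row B from row A (helper29) -/

namespace Vale.Agent.H29.P015

open Finset

theorem rowB_of (hA : ∀ N : ℕ, 2 ≤ N → Real.log N ≤ 6 * Real.exp (5/2 *
      ∑ p ∈ (Finset.range (N+1)).filter (fun p => p.Prime ∧ p % 4 = 1), (1:ℝ)/p))
    (B : ℝ) : ∃ M : ℕ, 2 ≤ M ∧ ∀ j0 : ℕ, ∃ j, j0 ≤ j ∧
    B ≤ ∑ p ∈ (Finset.Ioc (2^(M^j) : ℕ) (2^(M^(j+1)) : ℕ)).filter
      (fun p => p.Prime ∧ p % 4 = 1), (1:ℝ)/p := by
  obtain ⟨M, hM⟩ := exists_nat_gt (max (Real.exp (5/2 * B)) 2)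
  have hMq : Real.exp (5/2 * B) < M := lt_of_le_of_lt (le_max_left _ _) hM
  have hM2' : (2 : ℝ) < M := lt_of_le_of_lt (le_max_right _ _) hM
  have hM2 : 2 ≤ M := by
    have : 2 < M := by exact_mod_cast hM2'
    omega
  refine ⟨M, hM2, ?_⟩
  by_contra hcon
  push Not at hcon
  obtain ⟨j0, hj0⟩ := hcon
  obtain ⟨T, hT⟩ : ∃ T : ℕ → ℝ, ∀ j, T j = ∑ p ∈ (Finset.range (2^(M^j)+1)).filter
    (fun p => p.Prime ∧ p % 4 = 1), (1:ℝ)/p := ⟨_, fun _ => rfl⟩
  have hstep : ∀ j, T (j + 1) = T j + ∑ p ∈ (Finset.Ioc (2^(M^j) : ℕ) (2^(M^(j+1)) : ℕ)).filter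
      (fun p => p.Prime ∧ p % 4 = 1), (1:ℝ)/p := by
    intro j
    rw [hT, hT]
    have hle : 2 ^ (M ^ j) ≤ 2 ^ (M ^ (j + 1)) :=
      Nat.pow_le_pow_right (by norm_num) (Nat.pow_le_pow_right (by omega) (by omega))
    have e : (Finset.range (2^(M^(j+1))+1)).filter (fun p => p.Prime ∧ p % 4 = 1) =
        ((Finset.range (2^(M^j)+1)).filter (fun p => p.Prime ∧ p % 4 = 1)) ∪
        ((Finset.Ioc (2^(M^j) : ℕ) (2^(M^(j+1)) : ℕ)).filter
          (fun p => p.Prime ∧ p % 4 = 1)) := by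
      rw [← Finset.filter_union]
      congr 1
      ext x
      simp only [Finset.mem_range, Finset.mem_union, Finset.mem_Ioc]
      omega
    rw [e, Finset.sum_union]
    rw [Finset.disjoint_left]
    intro x hx hy
    simp only [Finset.mem_filter, Finset.mem_range, Finset.mem_Ioc] at hx hy
    omega
  have hind : ∀ n : ℕ, T (j0 + n) ≤ T j0 + B * n := by
    intro n
    induction n with
    | zero => simp
    | succ n ih =>
      have h1 := hj0 (j0 + n) (by omega)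
      rw [← add_assoc, hstep]
      push_cast
      linarith
  have hlog2 : 0 < Real.log 2 := Real.log_pos (by norm_num)
  have hMpos : (0 : ℝ) < M := by linarith
  have hkey : ∀ n : ℕ, (M : ℝ) ^ (j0 + n) * Real.log 2 ≤
      6 * Real.exp (5/2 * T j0) * Real.exp (5/2 * B) ^ n := by
    intro n
    have h2 : 2 ≤ 2 ^ (M ^ (j0 + n)) := by
      calc 2 = 2 ^ 1 := (pow_one 2).symm
        _ ≤ 2 ^ (M ^ (j0 + n)) :=
          Nat.pow_le_pow_right (by norm_num) (Nat.one_le_pow _ _ (by omega))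
    have h1 := hA (2 ^ (M ^ (j0 + n))) h2
    rw [← hT] at h1
    push_cast at h1
    rw [Real.log_pow] at h1
    push_cast at h1
    refine h1.trans ?_
    rw [mul_assoc, ← Real.exp_nat_mul, ← Real.exp_add]
    have h3 := hind n
    have h4 : 5/2 * T (j0 + n) ≤ 5/2 * T j0 + n * (5/2 * B) := by linarith
    have h5 := Real.exp_le_exp.mpr h4
    linarith
  have hq : 0 < Real.exp (5/2 * B) := Real.exp_pos _
  have hρ : 1 < (M : ℝ) / Real.exp (5/2 * B) := (one_lt_div hq).mpr hMq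
  obtain ⟨n, hn⟩ := pow_unbounded_of_one_lt
    (6 * Real.exp (5/2 * T j0) / ((M : ℝ) ^ j0 * Real.log 2)) hρ
  have h6 := hkey n
  rw [div_pow, div_lt_div_iff₀ (by positivity) (by positivity)] at hn
  rw [pow_add] at h6
  nlinarith

end Vale.Agent.H29.P015
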