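import Mathlib

/-! # P015 row D (helper29) -/

namespace Vale.Agent.H29.P015

theorem rowD (z : GaussianInt) (hz : Prime z) (p : ℕ) (hp : p.Prime) (h4 : p % 4 = 1)
    (hd : (p:ℤ) ∣ z.norm) : z.norm = p := by
  have : Fact p.Prime := ⟨hp⟩
  -- `p = a² + b²`
  obtain ⟨a, b, hab⟩ := Nat.Prime.sq_add_sq (p := p) (by omega)
  set w : GaussianInt := ⟨a, b⟩ with hw
  have hwn : w.norm = p := by
    rw [hw, Zsqrtd.norm_def]
    push_cast
    have : ((a ^ 2 + b ^ 2 : ℕ) : ℤ) = (p : ℤ) := by rw [hab]
    push_cast at this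
    linarith
  have hpw : (p : GaussianInt) = w * star w := by
    have := Zsqrtd.norm_eq_mul_conj w
    rw [hwn] at this
    exact_mod_cast this
  have hzn : (z.norm : GaussianInt) = z * star z := Zsqrtd.norm_eq_mul_conj z
  -- `w` is prime of norm `p`, divides `z * star z`
  have hwz : w ∣ z * star z := by
    rw [← hzn]
    obtain ⟨c, hc⟩ := hd
    rw [hc]
    push_cast
    rw [hpw]
    exact ⟨star w * c, by ring⟩
  have hirr : Irreducible w := by
    refine ⟨?_, ?_⟩
    · intro hu
      have h1 := Zsqrtd.norm_eq_one_iff.mpr hu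
      rw [hwn] at h1
      simp at h1
      exact hp.one_lt.ne' h1
    · intro x y hxy
      have h1 : x.norm.natAbs * y.norm.natAbs = p := by
        rw [← Int.natAbs_mul, ← Zsqrtd.norm_mul, ← hxy, hwn]
        simp
      rcases (Nat.Prime.eq_one_or_self_of_dvd hp _ ⟨_, h1.symm⟩) with h2 | h2
      · left; exact Zsqrtd.norm_eq_one_iff.mp h2
      · right
        rw [h2] at h1
        have : y.norm.natAbs = 1 := by
          have h3 : p * y.norm.natAbs = p * 1 := by rw [h1, mul_one]
          exact Nat.eq_of_mul_eq_mul_left hp.pos h3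
        exact Zsqrtd.norm_eq_one_iff.mp this
  have hwp : Prime w := hirr.prime
  have key : ∀ y : GaussianInt, y.norm = z.norm → Prime y → w ∣ y → z.norm = p := by
    intro y hy hyp h
    have h1 : Associated w y := hwp.associated_of_dvd hyp h
    obtain ⟨u, hu⟩ := h1
    rw [← hy, ← hu, Zsqrtd.norm_mul, hwn]
    have h2 : (u : GaussianInt).norm.natAbs = 1 := Zsqrtd.norm_eq_one_iff.mpr u.isUnit
    have h3 : 0 ≤ (u : GaussianInt).norm := GaussianInt.norm_nonneg _
    have h4 : (u : GaussianInt).norm = 1 := by omega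
    rw [h4, mul_one]
  have hstar : Prime (star z) := by
    have : star z = starRingEnd GaussianInt z := rfl
    rw [this]
    exact (MulEquiv.prime_iff (starRingAut (R := GaussianInt)).toMulEquiv).mpr hz
  rcases hwp.dvd_or_dvd hwz with h | h
  · exact key z rfl hz h
  · exact key (star z) (Zsqrtd.norm_conj z) hstar h

end Vale.Agent.H29.P015
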