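import Mathlib

/-! # P015 row E (helper29) -/

namespace Vale.Agent.H29.P015

theorem rowE (D k : ℕ) (u : ℕ → ℤ) (hstep : ∀ n, |u (n+1) - u n| ≤ D) (a : ℤ)
    (n0 n1 : ℕ) (h01 : n0 ≤ n1) (h0 : u n0 ≤ a) (h1 : a + k*D < u n1) :
    ∃ s, n0 < s ∧ ∀ i < k, a < u (s+i) ∧ u (s+i) ≤ a + k*D := by
  classical
  obtain ⟨m, hm, hmax⟩ := Finset.exists_max_image
    ((Finset.Icc n0 n1).filter (fun m => u m ≤ a)) id
    ⟨n0, Finset.mem_filter.mpr ⟨Finset.mem_Icc.mpr ⟨le_rfl, h01⟩, h0⟩⟩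
  rw [Finset.mem_filter, Finset.mem_Icc] at hm
  obtain ⟨⟨hm0, hm1⟩, hma⟩ := hm
  have hup : ∀ i : ℕ, u (m + i) ≤ u m + i * D := by
    intro i
    induction i with
    | zero => simp
    | succ i ih =>
      have h2 := (abs_le.mp (hstep (m + i))).2
      have e : m + (i + 1) = m + i + 1 := rfl
      rw [e]
      push_cast
      linarith
  refine ⟨m + 1, by omega, fun i hi => ?_⟩
  have e : m + 1 + i = m + (i + 1) := by omega
  have hik : ((i + 1 : ℕ) : ℤ) * D ≤ k * D := by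
    apply mul_le_mul_of_nonneg_right _ (Int.natCast_nonneg D)
    exact_mod_cast hi
  rw [e]
  constructor
  · by_contra hcon
    rw [not_lt] at hcon
    by_cases h2 : m + (i + 1) ≤ n1
    · have h3 := hmax (m + (i + 1)) (Finset.mem_filter.mpr
        ⟨Finset.mem_Icc.mpr ⟨by omega, h2⟩, hcon⟩)
      simp only [id] at h3
      omega
    · obtain ⟨t, rfl⟩ : ∃ t, n1 = m + t := ⟨n1 - m, by omega⟩
      have h3 := hup t
      have h4 : (t : ℤ) * D ≤ ((i + 1 : ℕ) : ℤ) * D := by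
        apply mul_le_mul_of_nonneg_right _ (Int.natCast_nonneg D)
        exact_mod_cast (by omega : t ≤ i + 1)
      linarith
  · have h3 := hup (i + 1)
    linarith

end Vale.Agent.H29.P015
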